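import Vale.Agent.P150.Crit.Test
import Vale.Agent.P146.Anti.Pins
import Vale.Agent.P146.GMean
import Vale.Agent.P146.Marg
import Vale.Agent.P146.MargIneq
import Vale.Agent.P146.MargRatio

/-!
# P150: the spectral gap closes at the critical temperature

At inverse temperature one the Gibbs mean of the test field `∑ S_(2i) / (i + 1)` of the GOE matrix is
at least of the order of the harmonic sum while its normalised trace tends to one, so some linear
statistic has a variance of that order times its Dirichlet form.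
-/

open MeasureTheory Real Filter Topology Finset Polynomial
open Vale.Agent.P157.Rsb (IsPath vOf)
open Vale.Agent.P146 (slope field field_eval field_nonneg arrLaw quad goe valueSemi)

namespace Vale.Agent.P150

theorem integral_field (A : ℕ) : ∫ t, (field A).eval t ∂P146.semi = 1 := by
  simp only [field_eval]
  rw [integral_finsetSum _ fun i _ =>
    (P146.integrable_semi (P146.cheb (2 * i)).continuous).const_mul _]
  simp only [integral_const_mul, P146.cheb_moment]
  rw [sum_eq_single 0]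
  · simp
  · intro i _ hi; rw [if_neg (by omega), mul_zero]
  · simp

/-- The normalised trace of the test field stays below two. -/
theorem trP_tendsto (A : ℕ) : Tendsto (fun n =>
    (arrLaw n).real {g | 2 < P146.Goe.trP (N := n) (field A) g}) atTop (𝓝 0) := by
  obtain ⟨C, hC, hvar⟩ := P146.Goe.exists_var_trP_le (field A)
  have hmean := (P146.Goe.tendsto_trP (field A)).eventually
    (eventually_le_nhds (show (∫ t, (field A).eval t ∂P146.semi) < 3 / 2 by rw [integral_field]; norm_num))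
  refine squeeze_zero' (.of_forall fun n => measureReal_nonneg) ?_
    (P146.Goe.tendsto_inv_sq (4 * C))
  filter_upwards [hmean, eventually_gt_atTop 0] with n hm hn
  set μ := stdPi (Fin n × Fin n)
  set e := fun g => (P146.Goe.trP (N := n) (field A) g - ∫ h, P146.Goe.trP (N := n) (field A) h ∂μ) ^ 2
  have hsub : {g : Fin n × Fin n → ℝ | 2 < P146.Goe.trP (N := n) (field A) g} ⊆ {g | 1 / 4 ≤ e g} := by
    intro g hg
    simp only [Set.mem_setOf_eq, e] at hg ⊢
    nlinarith
  show μ.real _ ≤ _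
  refine (measureReal_mono hsub).trans ?_
  have hi : Integrable e μ :=
    (((P146.Goe.grow_trP (field A)).sub (P146.Goe.grow_const _)).sq.integrable)
  have h := mul_meas_ge_le_integral_of_nonneg (μ := μ) (f := e) (ae_of_all _ fun g => sq_nonneg _) hi (1 / 4)
  have hv : ∫ g, e g ∂μ ≤ C / (n : ℝ) ^ 2 := hvar n hn
  have h4 : 4 * C / (n : ℝ) ^ 2 = 4 * (C / (n : ℝ) ^ 2) := by ring
  linarith

/-- The spectral gap tends to zero in probability at inverse temperature one. -/
theorem gap_critical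
    (hSlope : ∀ {β : ℝ}, 0 < β → (∀ δ : ℝ, 0 < δ → ∃ k₀ : ℕ, ∀ k : ℕ, k₀ ≤ k → ∀ q : ℕ → ℝ, IsPath k q →
        ∃ q', IsPath k q' ∧ valueSemi β k q' ≤ valueSemi β k q ∧ 1 - δ ≤ β * vOf k q' 0) →
      ∀ {x : ℝ}, 0 < x → x < 1 → ∀ (A : ℕ) {ε : ℝ}, 0 < ε → Tendsto (fun n => (arrLaw n).real
        {g | slope β (field A) n g < 1 / 2 * (∑ i ∈ range (A + 1), x ^ (2 * i + 1) / ((i : ℝ) + 1)) - ε})
          atTop (𝓝 0))
    {ε η : ℝ} (hε : 0 < ε) (hη : 0 < η) : ∃ n₀ : ℕ, ∀ n ≥ n₀,
      ENNReal.ofReal (1 - η) ≤ disorder n {g | gap n 1 g ≤ ε} := by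
  obtain ⟨A, hA : 8 / ε + 4 ≤ ∑ i ∈ range (A + 1), 1 / ((i : ℝ) + 1)⟩ :=
    ((tendsto_sum_range_one_div_nat_succ_atTop.comp (tendsto_add_atTop_nat 1)).eventually
      (eventually_ge_atTop (8 / ε + 4))).exists
  obtain ⟨x, hxS, hx0, hx1⟩ : ∃ x : ℝ, 4 / ε + 1 < ∑ i ∈ range (A + 1), x ^ (2 * i + 1) / ((i : ℝ) + 1)
      ∧ 0 < x ∧ x < 1 := by
    have hc : Continuous fun x : ℝ => ∑ i ∈ range (A + 1), x ^ (2 * i + 1) / ((i : ℝ) + 1) := by fun_prop
    have h8 : 8 / ε = 2 * (4 / ε) := by ring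
    have h0 : 0 < 4 / ε := by positivity
    have hlt : 4 / ε + 1 < ∑ i ∈ range (A + 1), (1 : ℝ) ^ (2 * i + 1) / ((i : ℝ) + 1) := by
      simp only [one_pow]; linarith
    have hev := (hc.continuousAt.eventually (Ioi_mem_nhds hlt)).filter_mono
      (nhdsWithin_le_nhds (s := Set.Iio 1))
    exact ((hev.and (Ioo_mem_nhdsLT (show (0 : ℝ) < 1 by norm_num))).exists).imp
      fun x hx => ⟨hx.1, hx.2.1, hx.2.2⟩
  set G := 1 / 2 * (∑ i ∈ range (A + 1), x ^ (2 * i + 1) / ((i : ℝ) + 1)) - 1 / 2 with hG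
  have hG0 : 2 / ε ≤ G := by
    have : 4 / ε = 2 * (2 / ε) := by ring
    linarith
  have hGp : 0 < G := (div_pos two_pos hε).trans_le hG0
  have hD := fun δ (hδ : 0 < δ) =>
    P146.marg_of P146.semiStmt P146.ineqStmt P146.ratioStmt (le_refl (1 : ℝ)) hδ
  have h1 := hSlope one_pos hD hx0 hx1 A (show (0 : ℝ) < 1 / 2 by norm_num)
  obtain ⟨n₀, hn₀⟩ := eventually_atTop.1 (((h1.eventually (eventually_le_nhds (half_pos hη))).and
    ((trP_tendsto A).eventually (eventually_le_nhds (half_pos hη)))).and (eventually_gt_atTop 0))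
  refine ⟨n₀, fun n hn => ?_⟩
  obtain ⟨⟨hb1, hb2⟩, hn0⟩ := hn₀ n hn
  set B : Set (Fin n × Fin n → ℝ) :=
    {g | slope 1 (field A) n g < G} ∪ {g | 2 < P146.Goe.trP (N := n) (field A) g}
  have hP : IsProbabilityMeasure (arrLaw n) := by unfold P146.arrLaw; infer_instance
  have hmp : MeasurePreserving (Prod.fst ∘ P146.Proj.split n) (arrLaw n) (disorder n) := by
    have : IsProbabilityMeasure (disorder n) := by unfold disorder; infer_instance
    exact measurePreserving_fst.comp (P146.Proj.mp_split n)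
  have hsub : Bᶜ ⊆ (Prod.fst ∘ P146.Proj.split n) ⁻¹' {g | gap n 1 g ≤ ε} := by
    intro g hg
    simp only [B, Set.mem_compl_iff, Set.mem_union, Set.mem_setOf_eq, not_or, not_lt] at hg
    obtain ⟨hs, ht⟩ := hg
    simp only [Set.mem_preimage, Set.mem_setOf_eq, Function.comp_apply]
    refine (gap_le_field hn0 g (field_nonneg A) (mul_pos two_pos hGp) ?_).trans ?_
    · rw [show slope 1 (field A) n g = 1 / 2 * (P166.avgQ 1 (fun x => quad (goe n g) x)
        (fun x => quad (aeval (goe n g) (field A)) x) / n) from rfl] at hs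
      linarith
    · rw [div_le_iff₀ (mul_pos two_pos hGp)]
      rw [div_le_iff₀ hε] at hG0
      linarith
  have hB : (arrLaw n).real B ≤ η := (measureReal_union_le _ _).trans (by linarith)
  have hB' : (arrLaw n) B ≤ ENNReal.ofReal η := by
    rw [← ofReal_measureReal]; exact ENNReal.ofReal_le_ofReal hB
  have hcompl : ENNReal.ofReal (1 - η) ≤ (arrLaw n) Bᶜ := by
    rw [ENNReal.ofReal_sub _ hη.le, ENNReal.ofReal_one]
    refine tsub_le_iff_right.2 ?_
    calc (1 : ENNReal) = arrLaw n (Bᶜ ∪ B) := by rw [Set.compl_union_self, measure_univ]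
      _ ≤ arrLaw n Bᶜ + arrLaw n B := measure_union_le _ _
      _ ≤ _ := add_le_add le_rfl hB'
  refine hcompl.trans ((measure_mono hsub).trans ?_)
  exact (Measure.le_map_apply hmp.measurable.aemeasurable _).trans_eq (by rw [hmp.map_eq])

end Vale.Agent.P150
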