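import Vale.Agent.P150.Glauber
import Vale.Agent.P146.Proj.Split
import Vale.Agent.P146.Goe.Limit
import Vale.Agent.P146.Goe.Main

/-!
# P150: a positive matrix with a large Gibbs mean forces a small spectral gap

The quadratic form of a positive semidefinite matrix is a mixture of squares of linear statistics
with total weight its trace, and a linear statistic has Dirichlet form at most its squared norm.
-/

open MeasureTheory Real Finset Polynomial
open Vale.Agent.P166 (avgQ IsOrth)
open Vale.Agent.P146 (quad goe)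
open Vale.Agent.P146.Proj (split exponent_split)

namespace Vale.Agent.P150

variable {n : ℕ} {β : ℝ} {g : Edge n → ℝ}

/-- Weighted squares of unit linear statistics bound the gap by total weight over mean. -/
theorem gap_le_of_weights {ι : Type*} [Fintype ι] (v : ι → Fin n → ℝ) (hv : ∀ i, ∑ j, v i j ^ 2 = 1)
    {w : ι → ℝ} (hw : ∀ i, 0 ≤ w i) {R : ℝ} (hR : 0 < R)
    (hmean : R ≤ ∑ i, w i * ∑ x, gibbs n β g x * linStat (v i) x ^ 2) :
    gap n β g ≤ (∑ i, w i) / R := by
  set V : ι → ℝ := fun i => ∑ x, gibbs n β g x * linStat (v i) x ^ 2 with hV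
  have hne : (univ : Finset ι).Nonempty := by
    rcases (univ : Finset ι).eq_empty_or_nonempty with h | h
    · rw [h, sum_empty] at hmean; linarith
    · exact h
  obtain ⟨i, -, hi⟩ := exists_max_image univ V hne
  have hle : R ≤ (∑ k, w k) * V i := by
    rw [sum_mul]
    exact hmean.trans (sum_le_sum fun k hk => mul_le_mul_of_nonneg_left (hi k hk) (hw k))
  have hW0 : 0 ≤ ∑ k, w k := sum_nonneg fun k _ => hw k
  have hVi : 0 < V i := by
    by_contra hc
    linarith [mul_nonpos_of_nonneg_of_nonpos hW0 (not_lt.1 hc)]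
  have hvar : gibbsVar n β g (linStat (v i)) = V i := by
    rw [gibbsVar, mean_linStat]; simp [hV]
  have hbdd : BddBelow (Set.range fun f : {f : (Fin n → Bool) → ℝ // 0 < gibbsVar n β g f} =>
      dirichlet n β g f.1 / gibbsVar n β g f.1) := by
    refine ⟨0, ?_⟩
    rintro _ ⟨f, rfl⟩
    refine div_nonneg ?_ f.2.le
    rw [dirichlet_eq]
    exact sum_nonneg fun l _ => sub_nonneg.2 (cond_quad l f.1).2
  refine (ciInf_le hbdd ⟨linStat (v i), hvar.symm ▸ hVi⟩).trans ?_
  simp only [hvar]
  rw [div_le_div_iff₀ hVi hR]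
  calc dirichlet n β g (linStat (v i)) * R ≤ 1 * R :=
        mul_le_mul_of_nonneg_right ((dirichlet_linStat_le (v i)).trans_eq (hv i)) hR.le
    _ ≤ (∑ k, w k) * V i := by rwa [one_mul]

/-- The Gibbs measure of the couplings inside an array. -/
theorem avgQ_eq_gibbs (A : Fin n × Fin n → ℝ) (φ : (Fin n → Bool) → ℝ) :
    avgQ β (fun x => quad (goe n A) x) φ = ∑ x, gibbs n β (split n A).1 x * φ x := by
  simp only [avgQ, exponent_split, Real.exp_add, gibbs]
  set c := Real.exp (β / √(2 * n) * ∑ i, A (i, i))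
  have hc : c ≠ 0 := (Real.exp_pos _).ne'
  rw [← sum_mul, sum_div]
  refine sum_congr rfl fun x _ => ?_
  field_simp

/-- A nonnegative polynomial of the GOE matrix whose Gibbs mean is `R n` forces gap `≤ tr / R`. -/
theorem gap_le_field (hn : 0 < n) (A : Fin n × Fin n → ℝ) {f : ℝ[X]} (hf : ∀ t, 0 ≤ f.eval t) {R : ℝ}
    (hR : 0 < R)
    (hmean : R ≤ avgQ β (fun x => quad (goe n A) x) (fun x => quad (aeval (goe n A) f) x) / n) :
    gap n β (split n A).1 ≤ P146.Goe.trP f A / R := by
  have hn' : (0 : ℝ) < n := Nat.cast_pos.2 hn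
  obtain ⟨V, h1, h2, h3⟩ := P146.Goe.exists_spectral A
  have hV : IsOrth (fun i j => V i j) := by
    rw [P166.isOrth_iff]
    exact h1
  have hq : ∀ x, quad (aeval (goe n A) f) x
      = ∑ i, f.eval (P146.Goe.lamG A i) * linStat (fun j => V i j) x ^ 2 := fun x => by
    rw [h3, P146.Goe.aeval_conj h1 h2, P146.Goe.aeval_diag,
      show V = Matrix.of (fun i j => V i j) from rfl, P146.Goe.quad_conj_diag]
    rfl
  have hm : R * n ≤ ∑ i, f.eval (P146.Goe.lamG A i)
      * ∑ x, gibbs n β (split n A).1 x * linStat (fun j => V i j) x ^ 2 := by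
    rw [le_div_iff₀ hn', avgQ_eq_gibbs] at hmean
    refine hmean.trans_eq ?_
    simp only [hq, mul_sum]
    rw [sum_comm]
    exact sum_congr rfl fun i _ => sum_congr rfl fun x _ => by ring
  refine (gap_le_of_weights (fun i j => V i j) (fun i => ?_) (fun i => hf _) (mul_pos hR hn') hm).trans
    (le_of_eq ?_)
  · simpa [pow_two] using hV.1 i i
  · rw [P146.Goe.trP, P146.Goe.trace_aeval]
    field_simp

end Vale.Agent.P150
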